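import Vale.Agent.P011.H373.Odd.RepT
import Vale.Agent.P011.H308.L2.Final

/-!
**Every nonzero symmetric element is of the form `t y y*`**: function fields of every
characteristic, odd degree.
-/

open Module

set_option linter.unusedSectionVars false

namespace Vale.Agent.P011.H373.Odd

open Vale.Agent.P011.H738 Vale.Agent.P011.H271 Vale.Agent.P011.H961

theorem sy_ffG {k K D : Type} [Field k] [GFF k] [Field K] [StarRing K] [DivisionRing D]
    [StarRing D] [Algebra k K] [Algebra k D] [Algebra K D] [IsScalarTower k K D] {n : ℕ}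
    (hS : SetG k K D) (hdeg : finrank K D = n ^ 2) (hn : Odd n) {x : D} (hx : star x = x)
    (hx0 : x ≠ 0) : Sy K x := by
  obtain ⟨r, y, hr, hy, h⟩ := H308.L2.exists_smul_star hS hdeg hn hx hx0
  exact ⟨algebraMap k K r, y, hS.star_algebraMap r, (_root_.map_ne_zero _).mpr hr, hy, by
    rw [h, ← IsScalarTower.algebraMap_apply, Algebra.smul_def]⟩

end Vale.Agent.P011.H373.Odd
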