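import Mathlib

/-!
**Symmetric elements `t y y*` close to zero or to one, topological form.**  `D` is a topological
division ring with continuous involution, `K` a field of central elements.  If the places of the
topology split in the centre and the unitary elements satisfy weak approximation, then in every
representation `s = t y y*` of an element close to zero (to one) one can take `t` close to one and
`y` close to zero (to one).  The characteristic is arbitrary.
-/

open Filter Topology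

set_option linter.unusedSectionVars false

namespace Vale.Agent.P011.H373.Odd

/-- a Cauchy sequence -/
def Cau {D : Type} [AddGroup D] [TopologicalSpace D] (w : ℕ → D) : Prop :=
  ∀ V ∈ 𝓝 (0 : D), ∃ M, ∀ a ≥ M, ∀ b ≥ M, w a - w b ∈ V

/-- weak approximation for the unitary elements -/
def WU (D : Type) [DivisionRing D] [StarRing D] [TopologicalSpace D] : Prop :=
  ∀ w : ℕ → D, Cau w → Tendsto (fun m => w m * star (w m)) atTop (𝓝 1) →
    Tendsto (fun m => star (w m) * w m) atTop (𝓝 1) →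
    ∃ u : ℕ → D, (∀ m, u m * star (u m) = 1) ∧ Tendsto (fun m => u m - w m) atTop (𝓝 0)

/-- the places of the topology split in the centre -/
def Spt (K D : Type) [Field K] [StarRing K] [DivisionRing D] [Algebra K D]
    [TopologicalSpace D] : Prop :=
  ∃ e : ℕ → K, (∀ m, e m + star (e m) = 1) ∧ Cau (fun m => algebraMap K D (e m)) ∧
    Tendsto (fun m => algebraMap K D (e m * star (e m))) atTop (𝓝 0)

/-- there are small symmetric central elements -/
def Nd (K D : Type) [Field K] [StarRing K] [DivisionRing D] [Algebra K D]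
    [TopologicalSpace D] : Prop :=
  ∀ V ∈ 𝓝 (0 : D), ∃ l : K, star l = l ∧ l ≠ 0 ∧ algebraMap K D l ∈ V

/-- the elements `t y y*` -/
def Sy (K : Type) {D : Type} [Field K] [StarRing K] [DivisionRing D] [StarRing D] [Algebra K D]
    (s : D) : Prop :=
  ∃ (t : K) (y : D), star t = t ∧ t ≠ 0 ∧ y ≠ 0 ∧ s = algebraMap K D t * (y * star y)

section cau

variable {D : Type} [DivisionRing D] [TopologicalSpace D] [IsTopologicalRing D]

theorem Cau.bdd {w : ℕ → D} (hw : Cau w) {V : Set D} (hV : V ∈ 𝓝 (0 : D)) :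
    ∃ V' ∈ 𝓝 (0 : D), ∀ m, ∀ x ∈ V', w m * x ∈ V := by
  have hadd : Tendsto (fun p : D × D => p.1 + p.2) (𝓝 0 ×ˢ 𝓝 0) (𝓝 0) := by
    have h := (continuous_add (M := D)).tendsto ((0 : D), (0 : D))
    rwa [nhds_prod_eq, add_zero] at h
  have hmul : Tendsto (fun p : D × D => p.1 * p.2) (𝓝 0 ×ˢ 𝓝 0) (𝓝 0) := by
    have h := (continuous_mul (M := D)).tendsto ((0 : D), (0 : D))
    rwa [nhds_prod_eq, mul_zero] at h
  obtain ⟨U1, hU1, U2, hU2, hU⟩ := mem_prod_iff.mp (hadd hV)
  obtain ⟨O1, hO1, O2, hO2, hO⟩ := mem_prod_iff.mp (hmul hU1)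
  obtain ⟨M, hM⟩ := hw O1 hO1
  have hcm : ∀ (c : D) {U : Set D}, U ∈ 𝓝 (0 : D) → {x : D | c * x ∈ U} ∈ 𝓝 (0 : D) := by
    intro c U hU
    have h : Tendsto (fun x : D => c * x) (𝓝 0) (𝓝 0) := by
      have := (continuous_const_mul c).tendsto (0 : D)
      rwa [mul_zero] at this
    exact h hU
  refine ⟨O2 ∩ {x | w M * x ∈ U2} ∩ ⋂ m ∈ Finset.range M, {x | w m * x ∈ V},
    inter_mem (inter_mem hO2 (hcm _ hU2)) ((Filter.biInter_finset_mem _).mpr fun m _ => hcm _ hV),
    fun m x hx => ?_⟩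
  obtain ⟨⟨hx1, hx2⟩, hx3⟩ := hx
  by_cases hm : m < M
  · exact Set.mem_iInter₂.mp hx3 m (Finset.mem_range.mpr hm)
  · push Not at hm
    have h1 : (w m - w M) * x ∈ U1 := hO (Set.mk_mem_prod (hM m hm M le_rfl) hx1)
    have h2 : (w m - w M) * x + w M * x ∈ V := hU (Set.mk_mem_prod h1 hx2)
    rwa [← add_mul, sub_add_cancel] at h2

theorem Cau.const_mul {w : ℕ → D} (hw : Cau w) (c : D) : Cau fun m => c * w m := by
  intro V hV
  have h : Tendsto (fun x : D => c * x) (𝓝 0) (𝓝 0) := by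
    have := (continuous_const_mul c).tendsto (0 : D)
    rwa [mul_zero] at this
  obtain ⟨M, hM⟩ := hw _ (h hV)
  refine ⟨M, fun a ha b hb => ?_⟩
  have h1 := hM a ha b hb
  change c * (w a - w b) ∈ V at h1
  rwa [mul_sub] at h1

theorem Cau.mul_const {w : ℕ → D} (hw : Cau w) (c : D) : Cau fun m => w m * c := by
  intro V hV
  have h : Tendsto (fun x : D => x * c) (𝓝 0) (𝓝 0) := by
    have := (continuous_mul_const c).tendsto (0 : D)
    rwa [zero_mul] at this
  obtain ⟨M, hM⟩ := hw _ (h hV)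
  refine ⟨M, fun a ha b hb => ?_⟩
  have h1 := hM a ha b hb
  change (w a - w b) * c ∈ V at h1
  rwa [sub_mul] at h1

theorem Cau.add_const {w : ℕ → D} (hw : Cau w) (c : D) : Cau fun m => w m + c := by
  intro V hV
  obtain ⟨M, hM⟩ := hw _ hV
  refine ⟨M, fun a ha b hb => ?_⟩
  have h1 := hM a ha b hb
  rwa [← add_sub_add_right_eq_sub (w a) (w b) c] at h1

end cau

section main

variable {K D : Type} [Field K] [StarRing K] [DivisionRing D] [StarRing D] [Algebra K D]
  [TopologicalSpace D] [IsTopologicalRing D] [ContinuousStar D] [T2Space D]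
  (hst : ∀ c : K, star (algebraMap K D c) = algebraMap K D (star c))

/-- the approximate square root of `s / t` -/
def xx (e : ℕ → K) (l t : K) (s : D) (m : ℕ) : D :=
  algebraMap K D (l * e m) + algebraMap K D (l⁻¹ * star (e m) * t⁻¹) * s

include hst

theorem xx_star {e : ℕ → K} {l t : K} {s : D} {m : ℕ} (hl : star l = l) (ht : star t = t)
    (hs : star s = s) :
    star (xx e l t s m) =
      algebraMap K D (l * star (e m)) + algebraMap K D (l⁻¹ * e m * t⁻¹) * s := by
  unfold xx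
  rw [star_add, star_mul, hst, hst, hs, star_mul', star_mul', star_mul', star_inv₀, star_inv₀,
    star_star, hl, ht, ← Algebra.commutes]

theorem xx_mul {e : ℕ → K} (he : ∀ m, e m + star (e m) = 1) {l t : K} {s : D} {m : ℕ}
    (hl0 : l ≠ 0) (hl : star l = l) (ht : star t = t) (hs : star s = s) :
    xx e l t s m * star (xx e l t s m) = algebraMap K D (e m * star (e m)) *
      (algebraMap K D (l * l) - algebraMap K D (2 * t⁻¹) * s +
        algebraMap K D (l⁻¹ * l⁻¹ * t⁻¹ * t⁻¹) * (s * s)) + algebraMap K D t⁻¹ * s := by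
  rw [xx_star hst hl ht hs]
  unfold xx
  have hc : ∀ (a : K) (x : D), x * algebraMap K D a = algebraMap K D a * x :=
    fun a x => (Algebra.commutes a x).symm
  have h1 : ∀ a b c f : K, (algebraMap K D a + algebraMap K D b * s) *
      (algebraMap K D c + algebraMap K D f * s) =
      algebraMap K D (a * c) + algebraMap K D (a * f + b * c) * s +
        algebraMap K D (b * f) * (s * s) := by
    intro a b c f
    rw [map_mul, map_add, map_mul, map_mul, map_mul, add_mul, mul_add, mul_add,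
      show algebraMap K D b * s * algebraMap K D c = algebraMap K D b * algebraMap K D c * s by
        rw [mul_assoc, hc c s, mul_assoc],
      show algebraMap K D b * s * (algebraMap K D f * s) =
        algebraMap K D b * algebraMap K D f * (s * s) by
        rw [mul_assoc, ← mul_assoc s, hc f s, mul_assoc, mul_assoc],
      ← mul_assoc (algebraMap K D a), add_mul]
    abel
  rw [h1]
  have h2 : ∀ a b c f : K, algebraMap K D a * (algebraMap K D b - algebraMap K D c * s +
      algebraMap K D f * (s * s)) = algebraMap K D (a * b) + algebraMap K D (-(a * c)) * s +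
        algebraMap K D (a * f) * (s * s) := by
    intro a b c f
    rw [map_mul, map_neg, map_mul, map_mul, mul_add, mul_sub, neg_mul, ← mul_assoc, ← mul_assoc]
    abel
  rw [h2]
  have h3 : ∀ a b c f g : K, algebraMap K D a + algebraMap K D b * s +
      algebraMap K D c * (s * s) + algebraMap K D f * s =
      algebraMap K D a + algebraMap K D (b + f) * s + algebraMap K D c * (s * s) := by
    intro a b c f g
    rw [map_add, add_mul]
    abel
  rw [h3 _ _ _ _ 0]
  have he1 : star (e m) = 1 - e m := by rw [← he m]; ring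
  rw [he1]
  have e1 : l * e m * (l * (1 - e m)) = e m * (1 - e m) * (l * l) := by ring
  have e2 : l * e m * (l⁻¹ * e m * t⁻¹) + l⁻¹ * (1 - e m) * t⁻¹ * (l * (1 - e m)) =
      -(e m * (1 - e m) * (2 * t⁻¹)) + t⁻¹ := by
    field_simp
    ring
  have e3 : l⁻¹ * (1 - e m) * t⁻¹ * (l⁻¹ * e m * t⁻¹) =
      e m * (1 - e m) * (l⁻¹ * l⁻¹ * t⁻¹ * t⁻¹) := by ring
  rw [e1, e2, e3]

theorem xx_comm {e : ℕ → K} {l t : K} {s : D} {m : ℕ} (hl : star l = l) (ht : star t = t)
    (hs : star s = s) :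
    star (xx e l t s m) * xx e l t s m = xx e l t s m * star (xx e l t s m) := by
  rw [xx_star hst hl ht hs]
  unfold xx
  have hc : ∀ (a : K) (x : D), Commute (algebraMap K D a) x := fun a x => Algebra.commutes a x
  have h1 : ∀ a b : K, Commute (algebraMap K D a * s) (algebraMap K D b * s) := fun a b =>
    ((hc a _).mul_left ((hc b s).symm.mul_right (Commute.refl s)))
  exact (((hc _ _).add_left (((hc _ _).symm).add_right (h1 _ _))) : Commute _ _)

theorem tendsto_xx {e : ℕ → K} (he : ∀ m, e m + star (e m) = 1)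
    (he0 : Tendsto (fun m => algebraMap K D (e m * star (e m))) atTop (𝓝 0)) {l t : K} {s : D}
    (hl0 : l ≠ 0) (hl : star l = l) (ht : star t = t) (hs : star s = s) :
    Tendsto (fun m => xx e l t s m * star (xx e l t s m)) atTop (𝓝 (algebraMap K D t⁻¹ * s)) := by
  simp only [xx_mul hst he hl0 hl ht hs]
  have h1 := (he0.mul_const (algebraMap K D (l * l) - algebraMap K D (2 * t⁻¹) * s +
        algebraMap K D (l⁻¹ * l⁻¹ * t⁻¹ * t⁻¹) * (s * s))).add_const (algebraMap K D t⁻¹ * s)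
  rwa [zero_mul, zero_add] at h1

/-- the norm class can be moved close to one -/
theorem exists_t {e : ℕ → K} (he : ∀ m, e m + star (e m) = 1)
    (he0 : Tendsto (fun m => algebraMap K D (e m * star (e m))) atTop (𝓝 0)) {t : K}
    (ht : star t = t) (ht0 : t ≠ 0) {V : Set D} (hV : V ∈ 𝓝 (1 : D)) :
    ∃ l : K, l ≠ 0 ∧ algebraMap K D (t * (l * star l)) ∈ V := by
  have h1 : ∀ m, t * ((e m + star (e m) * t⁻¹) * star (e m + star (e m) * t⁻¹)) =
      e m * star (e m) * (t * (1 + t⁻¹ * t⁻¹) - 2) + 1 := by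
    intro m
    rw [star_add, star_mul', star_star, star_inv₀, ht]
    have he1 : star (e m) = 1 - e m := by rw [← he m]; ring
    rw [he1]
    field_simp
    ring
  have h2 : Tendsto (fun m => algebraMap K D
      (t * ((e m + star (e m) * t⁻¹) * star (e m + star (e m) * t⁻¹)))) atTop (𝓝 1) := by
    have h3 := (he0.mul_const (algebraMap K D (t * (1 + t⁻¹ * t⁻¹) - 2))).add_const (1 : D)
    rw [zero_mul, zero_add] at h3
    refine h3.congr fun m => ?_
    rw [h1, map_add, map_mul _ (e m * star (e m)), map_one]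
  have h3 : ∀ᶠ m in atTop, algebraMap K D
      (t * ((e m + star (e m) * t⁻¹) * star (e m + star (e m) * t⁻¹))) ≠ 0 :=
    h2.eventually_ne one_ne_zero
  obtain ⟨m, hm1, hm2⟩ := (h3.and (h2 hV)).exists
  refine ⟨_, ?_, hm2⟩
  rintro h0
  rw [h0, zero_mul, mul_zero, map_zero] at hm1
  exact hm1 rfl

theorem core (hWU : WU D) {e : ℕ → K} (he : ∀ m, e m + star (e m) = 1)
    (hec : Cau fun m => algebraMap K D (e m))
    (he0 : Tendsto (fun m => algebraMap K D (e m * star (e m))) atTop (𝓝 0)) {l t : K} {s y : D}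
    (hl0 : l ≠ 0) (hl : star l = l) (ht0 : t ≠ 0) (ht : star t = t) (hy : y ≠ 0)
    (hs : s = algebraMap K D t * (y * star y)) {V : Set D} (hV : V ∈ 𝓝 (0 : D)) :
    ∃ (m : ℕ) (z : D), z ≠ 0 ∧ s = algebraMap K D t * (z * star z) ∧ z - xx e l t s m ∈ V := by
  have htD : algebraMap K D t ≠ 0 := (_root_.map_ne_zero _).mpr ht0
  have hyy : star (y * star y) = y * star y := by rw [star_mul, star_star]
  have hss : star s = s := by
    rw [hs, star_mul, hst, ht, hyy]
    exact (Algebra.commutes t _).symm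
  have hty : algebraMap K D t⁻¹ * s = y * star y := by
    rw [hs, ← mul_assoc, map_inv₀, inv_mul_cancel₀ htD, one_mul]
  have hsy : star y ≠ 0 := star_ne_zero.mpr hy
  have h1 := tendsto_xx hst he he0 hl0 hl ht hss
  rw [hty] at h1
  -- the sequence of almost unitary elements
  have hw1 : Tendsto (fun m => (y⁻¹ * xx e l t s m) * star (y⁻¹ * xx e l t s m)) atTop (𝓝 1) := by
    have h2 := (h1.const_mul y⁻¹).mul_const (star y)⁻¹
    have h3 : y⁻¹ * (y * star y) * (star y)⁻¹ = 1 := by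
      rw [← mul_assoc, inv_mul_cancel₀ hy, one_mul, mul_inv_cancel₀ hsy]
    rw [h3] at h2
    refine h2.congr fun m => ?_
    rw [star_mul, star_inv₀]
    simp only [mul_assoc]
  have hw2 : Tendsto (fun m => star (y⁻¹ * xx e l t s m) * (y⁻¹ * xx e l t s m)) atTop (𝓝 1) := by
    have h2 := h1.mul_const (star y)⁻¹
    have h3 := h1.const_mul (y * star y)⁻¹
    rw [inv_mul_cancel₀ (mul_ne_zero hy hsy)] at h3
    refine h3.congr fun m => ?_
    have hcm : Commute (star (xx e l t s m)) (y * star y)⁻¹ := by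
      apply Commute.inv_right₀
      rw [← hty, xx_star hst hl ht hss]
      have hc : ∀ (a : K) (x : D), Commute (algebraMap K D a) x := fun a x =>
        Algebra.commutes a x
      exact (hc _ _).add_left ((hc _ _).mul_left ((hc _ _).symm.mul_right (Commute.refl s)))
    rw [← xx_comm hst hl ht hss, ← mul_assoc, ← hcm.eq, star_mul, star_inv₀, mul_inv_rev]
    simp only [mul_assoc]
  have hw3 : Cau fun m => y⁻¹ * xx e l t s m := by
    apply Cau.const_mul
    have h4 : xx e l t s = fun m => algebraMap K D (e m) *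
        (algebraMap K D l - algebraMap K D (l⁻¹ * t⁻¹) * s) +
        algebraMap K D (l⁻¹ * t⁻¹) * s := by
      funext m
      unfold xx
      have he1 : star (e m) = 1 - e m := by rw [← he m]; ring
      have h5 : l⁻¹ * (1 - e m) * t⁻¹ = l⁻¹ * t⁻¹ - e m * (l⁻¹ * t⁻¹) := by ring
      rw [he1, h5, map_sub, sub_mul, mul_comm l, map_mul, map_mul _ (e m), mul_sub, mul_assoc]
      abel
    rw [h4]
    exact (hec.mul_const _).add_const _
  obtain ⟨u, hu1, hu2⟩ := hWU _ hw3 hw1 hw2
  have h5 := hu2.const_mul y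
  rw [mul_zero] at h5
  obtain ⟨m, hm⟩ := (h5.eventually hV).exists
  refine ⟨m, y * u m, ?_, ?_, ?_⟩
  · refine mul_ne_zero hy fun h0 => ?_
    have := hu1 m
    rw [h0, zero_mul] at this
    exact zero_ne_one this
  · rw [hs, star_mul, mul_assoc y, ← mul_assoc (u m), hu1, one_mul]
  · change y * (u m - y⁻¹ * xx e l t s m) ∈ V at hm
    rwa [mul_sub, ← mul_assoc, mul_inv_cancel₀ hy, one_mul] at hm

/-- moving the norm class of a representation -/
theorem move {e : ℕ → K} (he : ∀ m, e m + star (e m) = 1)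
    (he0 : Tendsto (fun m => algebraMap K D (e m * star (e m))) atTop (𝓝 0)) {s : D}
    (hs : Sy K s) {V : Set D} (hV : V ∈ 𝓝 (1 : D)) :
    ∃ (t : K) (y : D), star t = t ∧ t ≠ 0 ∧ y ≠ 0 ∧ algebraMap K D t ∈ V ∧
      s = algebraMap K D t * (y * star y) := by
  obtain ⟨t, y, ht, ht0, hy, rfl⟩ := hs
  obtain ⟨l, hl0, hl⟩ := exists_t hst he he0 ht ht0 hV
  have hlD : algebraMap K D l ≠ 0 := (_root_.map_ne_zero _).mpr hl0
  have hlD' : algebraMap K D (star l) ≠ 0 := (_root_.map_ne_zero _).mpr (star_ne_zero.mpr hl0)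
  refine ⟨t * (l * star l), (algebraMap K D l)⁻¹ * y, ?_,
    mul_ne_zero ht0 (mul_ne_zero hl0 (star_ne_zero.mpr hl0)),
    mul_ne_zero (inv_ne_zero hlD) hy, hl, ?_⟩
  · rw [star_mul', star_mul', star_star, ht, mul_comm (star l)]
  · have h1 : star ((algebraMap K D l)⁻¹ * y) = star y * (algebraMap K D (star l))⁻¹ := by
      rw [star_mul, star_inv₀, hst]
    rw [h1, map_mul, map_mul, mul_assoc, mul_assoc]
    congr 1
    have hc : ∀ (a : K) (x : D), algebraMap K D a * x = x * algebraMap K D a :=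
      fun a x => Algebra.commutes a x
    have h2 : algebraMap K D (star l) * ((algebraMap K D l)⁻¹ * y *
        (star y * (algebraMap K D (star l))⁻¹)) = (algebraMap K D l)⁻¹ * y * star y := by
      rw [hc, mul_assoc, mul_assoc (star y), inv_mul_cancel₀ hlD', mul_one]
    rw [h2, mul_assoc, ← mul_assoc (algebraMap K D l), mul_inv_cancel₀ hlD, one_mul]

/-- **Elements `t y y*` close to zero.** -/
theorem rep_zero [ContinuousInv₀ D] (hWU : WU D) (hsp : Spt K D) (hnd : Nd K D) {V V1 : Set D}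
    (hV : V ∈ 𝓝 (0 : D)) (hV1 : V1 ∈ 𝓝 (1 : D)) : ∃ V' ∈ 𝓝 (0 : D), ∀ s ∈ V', Sy K s →
      ∃ (t : K) (y : D), star t = t ∧ t ≠ 0 ∧ y ≠ 0 ∧ algebraMap K D t ∈ V1 ∧ y ∈ V ∧
        s = algebraMap K D t * (y * star y) := by
  obtain ⟨e, he, hec, he0⟩ := hsp
  have hadd : Tendsto (fun p : D × D => p.1 + p.2) (𝓝 0 ×ˢ 𝓝 0) (𝓝 0) := by
    have h := (continuous_add (M := D)).tendsto ((0 : D), (0 : D))
    rwa [nhds_prod_eq, add_zero] at h
  obtain ⟨U1, hU1, U2, hU2, hU⟩ := mem_prod_iff.mp (hadd hV)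
  obtain ⟨U3, hU3, U4, hU4, hU'⟩ := mem_prod_iff.mp (hadd hU2)
  obtain ⟨W1, hW1, hW1'⟩ := hec.bdd hU3
  have hec' : Cau fun m => algebraMap K D (star (e m)) := by
    have h1 := (hec.const_mul (-1)).add_const 1
    refine (?_ : (fun m => algebraMap K D (star (e m))) = _) ▸ h1
    funext m
    have he1 : star (e m) = 1 - e m := by rw [← he m]; ring
    rw [he1, map_sub, map_one, neg_one_mul]
    abel
  obtain ⟨W2, hW2, hW2'⟩ := hec'.bdd hU4
  obtain ⟨l, hl, hl0, hlW⟩ := hnd W1 hW1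
  -- the function `(t, s) ↦ l⁻¹ t⁻¹ s`
  have hf : Tendsto (fun p : D × D => (algebraMap K D l)⁻¹ * (p.1⁻¹ * p.2)) (𝓝 1 ×ˢ 𝓝 0)
      (𝓝 0) := by
    have h1 : Tendsto (fun p : D × D => p.1⁻¹) (𝓝 1 ×ˢ 𝓝 0) (𝓝 (1⁻¹ : D)) :=
      (tendsto_inv₀ one_ne_zero).comp tendsto_fst
    have h2 := (h1.mul (tendsto_snd (f := 𝓝 (1 : D)) (g := 𝓝 (0 : D)))).const_mul
      (algebraMap K D l)⁻¹
    rwa [mul_zero, mul_zero] at h2
  obtain ⟨X1, hX1, X2, hX2, hX⟩ := mem_prod_iff.mp (hf hW2)
  refine ⟨X2, hX2, fun s hsX hs => ?_⟩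
  obtain ⟨t, y, ht, ht0, hy, htV, hse⟩ := move hst he he0 hs (inter_mem hV1 hX1)
  obtain ⟨m, z, hz0, hz, hzV⟩ := core hst hWU he hec he0 hl0 hl ht0 ht hy hse hU1
  refine ⟨t, z, ht, ht0, hz0, htV.1, ?_, hz⟩
  have h1 : algebraMap K D (e m) * algebraMap K D l ∈ U3 := hW1' m _ hlW
  have h2 : (algebraMap K D l)⁻¹ * ((algebraMap K D t)⁻¹ * s) ∈ W2 :=
    hX (Set.mk_mem_prod htV.2 hsX)
  have h3 := hW2' m _ h2
  have h4 : xx e l t s m = algebraMap K D (e m) * algebraMap K D l +
      algebraMap K D (star (e m)) * ((algebraMap K D l)⁻¹ * ((algebraMap K D t)⁻¹ * s)) := by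
    unfold xx
    rw [mul_comm l, mul_comm l⁻¹, mul_assoc (star (e m)), map_mul, map_mul, map_mul, map_inv₀,
      map_inv₀]
    simp only [mul_assoc]
  have h5 : xx e l t s m ∈ U2 := by
    rw [h4]
    exact hU' (Set.mk_mem_prod h1 h3)
  have h6 := hU (Set.mk_mem_prod hzV h5)
  change z - xx e l t s m + xx e l t s m ∈ V at h6
  rwa [sub_add_cancel] at h6

/-- **Elements `t y y*` close to one.** -/
theorem rep_one [ContinuousInv₀ D] (hWU : WU D) (hsp : Spt K D) {V : Set D}
    (hV : V ∈ 𝓝 (1 : D)) : ∃ V' ∈ 𝓝 (1 : D), ∀ s ∈ V', Sy K s →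
      ∃ (t : K) (y : D), star t = t ∧ t ≠ 0 ∧ y ≠ 0 ∧ algebraMap K D t ∈ V ∧ y ∈ V ∧
        s = algebraMap K D t * (y * star y) := by
  obtain ⟨e, he, hec, he0⟩ := hsp
  have hadd : Tendsto (fun p : D × D => p.1 + p.2) (𝓝 0 ×ˢ 𝓝 1) (𝓝 1) := by
    have h := (continuous_add (M := D)).tendsto ((0 : D), (1 : D))
    rwa [nhds_prod_eq, zero_add] at h
  have hadd' : Tendsto (fun p : D => p + 1) (𝓝 0) (𝓝 1) := by
    have h := (continuous_add_const (1 : D)).tendsto (0 : D)
    rwa [zero_add] at h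
  obtain ⟨U1, hU1, U2, hU2, hU⟩ := mem_prod_iff.mp (hadd hV)
  have hec' : Cau fun m => algebraMap K D (star (e m)) := by
    have h1 := (hec.const_mul (-1)).add_const 1
    refine (?_ : (fun m => algebraMap K D (star (e m))) = _) ▸ h1
    funext m
    have he1 : star (e m) = 1 - e m := by rw [← he m]; ring
    rw [he1, map_sub, map_one, neg_one_mul]
    abel
  obtain ⟨W2, hW2, hW2'⟩ := hec'.bdd (hadd' hU2)
  have hf : Tendsto (fun p : D × D => p.1⁻¹ * p.2 - 1) (𝓝 1 ×ˢ 𝓝 1) (𝓝 0) := by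
    have h1 : Tendsto (fun p : D × D => p.1⁻¹) (𝓝 1 ×ˢ 𝓝 1) (𝓝 (1⁻¹ : D)) :=
      (tendsto_inv₀ one_ne_zero).comp tendsto_fst
    have h2 := (h1.mul (tendsto_snd (f := 𝓝 (1 : D)) (g := 𝓝 (1 : D)))).sub_const 1
    rwa [inv_one, mul_one, sub_self] at h2
  obtain ⟨X1, hX1, X2, hX2, hX⟩ := mem_prod_iff.mp (hf hW2)
  refine ⟨X2, hX2, fun s hsX hs => ?_⟩
  obtain ⟨t, y, ht, ht0, hy, htV, hse⟩ := move hst he he0 hs (inter_mem hV hX1)
  obtain ⟨m, z, hz0, hz, hzV⟩ := core hst hWU he hec he0 one_ne_zero (star_one K) ht0 ht hy hse hU1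
  refine ⟨t, z, ht, ht0, hz0, htV.1, ?_, hz⟩
  have h2 : (algebraMap K D t)⁻¹ * s - 1 ∈ W2 := hX (Set.mk_mem_prod htV.2 hsX)
  have h3 := hW2' m _ h2
  have h4 : xx e 1 t s m =
      algebraMap K D (star (e m)) * ((algebraMap K D t)⁻¹ * s - 1) + 1 := by
    unfold xx
    have h5 : (1 : D) = algebraMap K D (e m) + algebraMap K D (star (e m)) := by
      rw [← map_add, he m, map_one]
    rw [one_mul, inv_one, one_mul, map_mul, map_inv₀, mul_sub, mul_one, mul_assoc]
    have h6 : algebraMap K D (e m) = 1 - algebraMap K D (star (e m)) := by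
      rw [h5]
      abel
    rw [h6]
    abel
  have h5 : xx e 1 t s m ∈ U2 := by
    rw [h4]
    exact h3
  have h6 := hU (Set.mk_mem_prod hzV h5)
  change z - xx e 1 t s m + xx e 1 t s m ∈ V at h6
  rwa [sub_add_cancel] at h6

end main

end Vale.Agent.P011.H373.Odd
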