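import Vale.Agent.P011.H373.Odd.RepT
import Vale.Agent.P011.H167.LandF

/-!
**Symmetric elements are of the form `t y y*` (odd degree)**: from the classification of the
hermitian forms of rank one by the discriminant; function fields of characteristic different from
two.
-/

open Module

set_option linter.unusedSectionVars false

namespace Vale.Agent.P011.H373.Odd

/-- Landherr's theorem in rank one gives the representations `t y y*`, in odd degree. -/
theorem sy_of_land {K D Ω : Type} [Field K] [StarRing K] [DivisionRing D] [StarRing D]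
    [Algebra K D] [Field Ω] [Algebra K Ω] {n : ℕ} (hn : Odd n)
    (hst : ∀ c : K, star (algebraMap K D c) = algebraMap K D (star c))
    (f : D →ₐ[K] Matrix (Fin n) (Fin n) Ω) {s : D} {ν : K}
    (hν : star ν = ν) (hν0 : ν ≠ 0) (hdet : (f s).det = algebraMap K Ω ν)
    (hland : ∀ (c : D) (z : K), star c = c → c ≠ 0 →
      (f s).det = (f c).det * algebraMap K Ω (z * star z) → ∃ t : D, t ≠ 0 ∧ s = t * c * star t) :
    Sy K s := by
  obtain ⟨m, rfl⟩ := hn
  have hc0 : algebraMap K D ν ≠ 0 := (_root_.map_ne_zero _).mpr hν0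
  obtain ⟨t, ht, h⟩ := hland (algebraMap K D ν) ((ν ^ m)⁻¹) (by rw [hst, hν]) hc0 (by
    rw [hdet, AlgHom.commutes]
    have h1 : (algebraMap K (Matrix (Fin (2 * m + 1)) (Fin (2 * m + 1)) Ω) ν).det =
        algebraMap K Ω (ν ^ (2 * m + 1)) := by
      have h2 : algebraMap K (Matrix (Fin (2 * m + 1)) (Fin (2 * m + 1)) Ω) ν =
          Matrix.scalar (Fin (2 * m + 1)) (algebraMap K Ω ν) := rfl
      rw [h2, Matrix.scalar_apply, Matrix.det_diagonal, Finset.prod_const, Finset.card_univ,
        Fintype.card_fin, map_pow]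
    rw [h1, ← map_mul]
    congr 1
    rw [star_inv₀, star_pow, hν]
    field_simp
    ring)
  refine ⟨ν, t, hν, hν0, ht, ?_⟩
  have hc : t * algebraMap K D ν = algebraMap K D ν * t := (Algebra.commutes ν t).symm
  rw [h, hc, mul_assoc]

section ff

open Vale.Agent.P011.H738 Vale.Agent.P011.H271 Vale.Agent.P011.H182 Vale.Agent.P011.H305
  Vale.Agent.P011.H158.N4

variable {k K D : Type} [Field k] [GFF k] [Field K] [StarRing K] [DivisionRing D] [StarRing D]
  [Algebra k K] [Algebra k D] [Algebra K D] [IsScalarTower k K D] {d : kˣ} {s : K} {n : ℕ}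
  {Ω : Type} [Field Ω] [Algebra K Ω]

/-- **Every nonzero symmetric element is of the form `t y y*`**: function fields of characteristic
different from two, odd degree. -/
theorem sy_ff (hS : SetF k K D d s) (hn : Odd n) (hdeg : finrank K D = n ^ 2)
    (f : D →ₐ[K] Matrix (Fin n) (Fin n) Ω) {x : D} (hx : star x = x) (hx0 : x ≠ 0) : Sy K x := by
  obtain ⟨ν, hν⟩ := H167.Lf.exists_nrd_unit hS hdeg f hx hx0
  have hst : ∀ c : K, star (algebraMap K D c) = algebraMap K D (star c) := fun c => by
    rw [Algebra.algebraMap_eq_smul_one, hS.star_smul, star_one, ← Algebra.algebraMap_eq_smul_one]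
  exact sy_of_land hn hst f ((hS.fix _).mpr ⟨_, rfl⟩)
    ((_root_.map_ne_zero _).mpr ν.ne_zero) hν
    fun c z hc hc0 hz => H167.Lf.landF' hS hdeg f hc hx hc0 hx0 hz

end ff

end Vale.Agent.P011.H373.Odd
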