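import Vale.Agent.P011.H373.Odd.RepT
import Vale.Agent.P011.H775.Odd.Top
import Vale.Agent.P011.H698.DensFF
import Vale.Agent.P011.H961.SetG

/-!
**Weak approximation of the unitary group and the splitting of the centre, over function fields (any
characteristic), in the topology of finitely many places which split in the centre.**
-/

open Module Filter Topology

set_option linter.unusedSectionVars false
set_option linter.style.haveILetI false

namespace Vale.Agent.P011.H373.Odd

open Vale.Agent.P011.H738 Vale.Agent.P011.H271 Vale.Agent.P011.H74 Vale.Agent.P011.H698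
  Vale.Agent.P011.H961
open Vale.Agent.P011.H775.Top (topD sz tendsto_iff sz_lt_iff coord_le sz_nonneg)

section br

variable {k D : Type} [Field k] [DivisionRing D] [StarRing D] [Algebra k D] [StarLinR k D] {N : ℕ}
  (B : Basis (Fin N) k D) (S : Finset (Place k)) [Nonempty S]

/-- the absolute values of the places in `S` -/
abbrev av (S : Finset (Place k)) : S → AbsoluteValue k ℝ := fun v => (v : Place k).abv

theorem tendsto_br_iff {R : Type} [Field R] [TopologicalSpace R] [IsTopologicalRing R]
    [Algebra k R] {X : Type} {l : Filter X} {f : X → BR B R} {y : BR B R} :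
    Tendsto f l (𝓝 y) ↔ ∀ i, Tendsto (fun m => eqF B R (f m) i) l (𝓝 (eqF B R y i)) := by
  have hi : Topology.IsInducing (fun x : BR B R => eqF B R x) := ⟨rfl⟩
  rw [hi.tendsto_nhds_iff, tendsto_pi_nhds]
  rfl

/-- Convergence in the topology of `D` and in the completions. -/
theorem tendsto_topD_br {f : ℕ → D} {y : D} :
    Tendsto f atTop (@nhds D (topD B (av S)) y) ↔
      ∀ v : S, Tendsto (fun m => (bcrT B (v : Place k).comp).j (f m)) atTop
        (𝓝 ((bcrT B (v : Place k).comp).j y)) := by
  rw [tendsto_iff B (av S)]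
  have e : ∀ (v : S) j m, ‖eqF B (v : Place k).comp ((bcrT B (v : Place k).comp).j (f m)) j -
      eqF B (v : Place k).comp ((bcrT B (v : Place k).comp).j y) j‖ =
      av S v (B.repr (f m - y) j) := by
    intro v j m
    rw [← Pi.sub_apply, ← map_sub, ← map_sub, eqF_j]
  constructor
  · intro h v
    rw [tendsto_br_iff B]
    intro j
    rw [tendsto_iff_norm_sub_tendsto_zero]
    simp only [e]
    exact squeeze_zero (fun m => (av S v).nonneg _) (fun m => coord_le B (av S) _ v j) h
  · intro h
    have h1 : Tendsto (fun m => ∑ v, ∑ j, av S v (B.repr (f m - y) j)) atTop (𝓝 0) := by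
      have h2 : (0 : ℝ) = ∑ v : S, ∑ j : Fin N, (0 : ℝ) := by simp
      rw [h2]
      refine tendsto_finsetSum _ fun v _ => tendsto_finsetSum _ fun j _ => ?_
      have h3 := tendsto_iff_norm_sub_tendsto_zero.mp ((tendsto_br_iff B).mp (h v) j)
      simp only [e] at h3
      exact h3
    refine squeeze_zero (fun m => sz_nonneg B (av S) _) (fun m => ?_) h1
    refine (Vale.Agent.P011.H775.Top.sz_le_iff B (av S) (Finset.sum_nonneg fun i _ =>
      Finset.sum_nonneg fun j _ => AbsoluteValue.nonneg _ _)).mpr fun i j => ?_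
    refine le_trans ?_ (Finset.single_le_sum (f := fun i => ∑ j, av S i (B.repr (f m - y) j))
      (fun i _ => Finset.sum_nonneg fun j _ => AbsoluteValue.nonneg _ _) (Finset.mem_univ i))
    exact Finset.single_le_sum (f := fun j => av S i (B.repr (f m - y) j))
      (fun j _ => AbsoluteValue.nonneg _ _) (Finset.mem_univ j)

/-- Convergent sequences are Cauchy. -/
theorem cau_of_br {w : ℕ → D} (h : ∀ v : S, ∃ X,
    Tendsto (fun m => (bcrT B (v : Place k).comp).j (w m)) atTop (𝓝 X)) :
    @Cau D _ (topD B (av S)) w := by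
  choose X hX using h
  intro V hV
  obtain ⟨ε, hε, hV'⟩ := (Vale.Agent.P011.H775.Top.mem_nhds_iff B (av S)).mp hV
  have h1 : ∀ᶠ m in atTop, ∀ (v : S) j, ‖eqF B (v : Place k).comp
      ((bcrT B (v : Place k).comp).j (w m)) j - eqF B (v : Place k).comp (X v) j‖ < ε / 2 := by
    rw [eventually_all]
    intro v
    rw [eventually_all]
    intro j
    have h3 := tendsto_iff_norm_sub_tendsto_zero.mp ((tendsto_br_iff B).mp (hX v) j)
    exact h3.eventually_lt_const (by positivity)
  obtain ⟨M, hM⟩ := eventually_atTop.mp h1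
  refine ⟨M, fun p hp q hq => hV' _ fun v j => ?_⟩
  rw [sub_zero]
  change (v : Place k).abv _ < ε
  rw [← eqF_j, map_sub, map_sub, Pi.sub_apply]
  have h2 := hM p hp v j
  have h3 := hM q hq v j
  calc ‖eqF B (v : Place k).comp ((bcrT B (v : Place k).comp).j (w p)) j -
        eqF B (v : Place k).comp ((bcrT B (v : Place k).comp).j (w q)) j‖
      = ‖(eqF B (v : Place k).comp ((bcrT B (v : Place k).comp).j (w p)) j -
          eqF B (v : Place k).comp (X v) j) -
        (eqF B (v : Place k).comp ((bcrT B (v : Place k).comp).j (w q)) j -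
          eqF B (v : Place k).comp (X v) j)‖ := by
        congr 1
        ring
    _ ≤ _ := norm_sub_le _ _
    _ < ε := by linarith

/-- Cauchy sequences converge in the completions. -/
theorem br_of_cau {w : ℕ → D} (h : @Cau D _ (topD B (av S)) w) (v : S) :
    ∃ X, Tendsto (fun m => (bcrT B (v : Place k).comp).j (w m)) atTop (𝓝 X) := by
  have h1 : ∀ j, CauchySeq fun m => eqF B (v : Place k).comp
      ((bcrT B (v : Place k).comp).j (w m)) j := by
    intro j
    rw [Metric.cauchySeq_iff]
    intro ε hε
    obtain ⟨M, hM⟩ := h {x | ∀ (v : S) j, av S v (B.repr x j) < ε}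
      ((Vale.Agent.P011.H775.Top.mem_nhds_iff B (av S)).mpr ⟨ε, hε, fun x hx => by
        rw [sub_zero] at hx
        exact hx⟩)
    refine ⟨M, fun p hp q hq => ?_⟩
    have h2 : (v : Place k).abv (B.repr (w p - w q) j) < ε := hM p hp q hq v j
    rw [← eqF_j, map_sub, map_sub, Pi.sub_apply] at h2
    rwa [dist_eq_norm]
  choose l hl using fun j => cauchySeq_tendsto_of_complete (h1 j)
  refine ⟨(eqF B (v : Place k).comp).symm l, ?_⟩
  rw [tendsto_br_iff B]
  intro j
  rw [LinearEquiv.apply_symm_apply]
  exact hl j

end br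

section ff

variable {k K D : Type} [Field k] [Field K] [StarRing K] [DivisionRing D] [StarRing D]
  [Algebra k K] [Algebra k D] [Algebra K D] [IsScalarTower k K D] [StarModule K D] {n N : ℕ}

/-- **Weak approximation for unitary elements**, function fields. -/
theorem wu_ff [Infinite k] (hA : Anis k K D n) (B : Basis (Fin N) k D) (S : Finset (Place k))
    [Nonempty S] : @WU D _ _ (topD B (av S)) := by
  classical
  have hSL : StarLinR k D := ⟨H519.star_smul_of_anis hA⟩
  intro w hw h1 h2
  choose X hX using br_of_cau B S hw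
  rw [tendsto_topD_br B S] at h1 h2
  have ht2 : ∀ v : S, T2Space (BR B (v : Place k).comp) := fun v =>
    (bcrT B (v : Place k).comp).t2
  have hcs : ∀ v : S, ContinuousStar (BR B (v : Place k).comp) := fun v =>
    (bcrT B (v : Place k).comp).continuousStar
  have hs : ∀ v : S, Tendsto (fun m => star ((bcrT B (v : Place k).comp).j (w m))) atTop
      (𝓝 (star (X v))) := fun v => by
    have := hcs v
    exact (hX v).star
  have hX1 : ∀ v, X v * star (X v) = 1 := fun v => by
    have := ht2 v
    refine tendsto_nhds_unique ((hX v).mul (hs v)) ?_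
    have h3 := h1 v
    rw [map_one] at h3
    refine h3.congr fun m => ?_
    rw [map_mul, (bcrT B (v : Place k).comp).j_star]
  have hX2 : ∀ v, star (X v) * X v = 1 := fun v => by
    have := ht2 v
    refine tendsto_nhds_unique ((hs v).mul (hX v)) ?_
    have h3 := h2 v
    rw [map_one] at h3
    refine h3.congr fun m => ?_
    rw [map_mul, (bcrT B (v : Place k).comp).j_star]
  choose u hu using fun m : ℕ => weak_unitary hA B S X hX1 hX2
    (show (0 : ℝ) < 1 / ((m : ℝ) + 1) by positivity)
  refine ⟨fun m => ((u m : Dˣ) : D), fun m => ua_mul_star (u m), ?_⟩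
  rw [tendsto_topD_br B S]
  intro v
  rw [map_zero, tendsto_br_iff B]
  intro j
  have h3 : Tendsto (fun m => eqF B (v : Place k).comp
      ((bcrT B (v : Place k).comp).j ((u m : Dˣ) : D) - X v) j) atTop (𝓝 0) := by
    rw [tendsto_zero_iff_norm_tendsto_zero]
    exact squeeze_zero (fun m => norm_nonneg _) (fun m => (hu m v j).le)
      tendsto_one_div_add_atTop_nhds_zero_nat
  have h4 : Tendsto (fun m => eqF B (v : Place k).comp
      ((bcrT B (v : Place k).comp).j (w m)) j - eqF B (v : Place k).comp (X v) j) atTop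
      (𝓝 0) := by
    have h5 := ((tendsto_br_iff B).mp (hX v) j).sub_const (eqF B (v : Place k).comp (X v) j)
    rwa [sub_self] at h5
  have h6 := h3.sub h4
  rw [sub_zero] at h6
  rw [map_zero, Pi.zero_apply]
  refine h6.congr fun m => ?_
  rw [map_sub, map_sub, map_sub, Pi.sub_apply, Pi.sub_apply]
  ring

/-- **The places of the topology split in the centre**, function fields. -/
theorem spt_ff (hS : SetG k K D) (B : Basis (Fin N) k D) (S : Finset (Place k)) [Nonempty S]
    (hφ : ∀ v ∈ S, Nonempty (K →ₐ[k] v.comp)) : @Spt K D _ _ _ _ (topD B (av S)) := by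
  classical
  have hSL : StarLinR k D := ⟨hS.star_smulk⟩
  obtain ⟨κ, hκ, hκ'⟩ := hS.exists_kappa
  obtain ⟨ν, hν, -⟩ := hS.exists_nu κ hκ
  have hfix : ∀ c : k, star (algebraMap k K c) = algebraMap k K c := hS.star_algebraMap
  have hex : ∀ v : S, ∃ x : (v : Place k).comp,
      x - x * x + (1 - 2 * x) * (1 - 2 * x) * algebraMap k _ ν = 0 := by
    intro v
    obtain ⟨φ⟩ := hφ v v.2
    set θ := φ κ with hθ
    have h1 : φ (star κ) = 1 - θ := by
      rw [hθ, ← map_one φ, ← map_sub, ← hκ]
      congr 1
      ring
    have h2 : θ * (1 - θ) = algebraMap k _ ν := by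
      rw [← h1, hθ, ← map_mul, hν, φ.commutes]
    have h3 : 1 - 2 * θ ≠ 0 := by
      intro h
      apply hκ'
      apply (φ : K →+* (v : Place k).comp).injective
      change φ (star κ) = φ κ
      rw [h1]
      linear_combination h
    obtain ⟨w, hw⟩ : ∃ w, w * (1 - 2 * θ) = 1 := ⟨(1 - 2 * θ)⁻¹, inv_mul_cancel₀ h3⟩
    refine ⟨(1 - θ) * w, ?_⟩
    rw [← h2]
    have h4 : 1 - 2 * ((1 - θ) * w) = -w := by linear_combination -hw
    rw [h4]
    linear_combination (-(1 - θ) * w) * hw
  choose x hx using hex
  choose c hc using fun m : ℕ => place_weak S x (show (0 : ℝ) < 1 / ((m : ℝ) + 1) by positivity)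
  have hcv : ∀ v : S, Tendsto (fun m => algebraMap k (v : Place k).comp (c m)) atTop
      (𝓝 (x v)) := fun v => by
    rw [tendsto_iff_norm_sub_tendsto_zero]
    exact squeeze_zero (fun m => norm_nonneg _) (fun m => (hc m v).le)
      tendsto_one_div_add_atTop_nhds_zero_nat
  have hst : ∀ m, star (algebraMap k K (c m) + (1 - 2 * algebraMap k K (c m)) * κ) =
      algebraMap k K (c m) + (1 - 2 * algebraMap k K (c m)) * (1 - κ) := by
    intro m
    have h1 : star κ = 1 - κ := by rw [← hκ]; ring
    rw [star_add, star_mul', star_sub, star_mul', hfix, star_one, h1, star_ofNat]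
  have hsa : ∀ c : k, algebraMap K D (algebraMap k K c) = algebraMap k D c := fun c =>
    (IsScalarTower.algebraMap_apply k K D c).symm
  have halg : ∀ (v : S) (a : ℕ → k) (y : (v : Place k).comp),
      Tendsto (fun m => algebraMap k (v : Place k).comp (a m)) atTop (𝓝 y) → ∀ z : D,
      Tendsto (fun m => (bcrT B (v : Place k).comp).j (a m • z)) atTop
        (𝓝 (y • (bcrT B (v : Place k).comp).j z)) := by
    intro v a y h z
    rw [tendsto_br_iff B]
    intro j
    have h5 : ∀ r : (v : Place k).comp, eqF B (v : Place k).comp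
        (r • (bcrT B (v : Place k).comp).j z) j =
        r * eqF B (v : Place k).comp ((bcrT B (v : Place k).comp).j z) j := by
      intro r
      rw [map_smul, Pi.smul_apply, smul_eq_mul]
    simp only [(bcrT B (v : Place k).comp).j_smul, h5]
    exact h.mul_const _
  refine ⟨fun m => algebraMap k K (c m) + (1 - 2 * algebraMap k K (c m)) * κ, fun m => ?_, ?_, ?_⟩
  · rw [hst]
    ring
  · refine cau_of_br B S fun v => ?_
    have h1 := halg v c _ (hcv v) (1 - 2 * algebraMap K D κ)
    have h2 := h1.add_const ((bcrT B (v : Place k).comp).j (algebraMap K D κ))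
    refine ⟨_, h2.congr fun m => ?_⟩
    rw [← map_add]
    congr 1
    rw [Algebra.smul_def, ← hsa, map_add, map_mul, map_sub, map_mul, map_one, map_ofNat]
    noncomm_ring
  · rw [tendsto_topD_br B S]
    intro v
    have h3 : Tendsto (fun m => algebraMap k (v : Place k).comp
        (c m - c m * c m + (1 - 2 * c m) * (1 - 2 * c m) * ν)) atTop (𝓝 0) := by
      have h4 := ((hcv v).sub ((hcv v).mul (hcv v))).add
        ((((hcv v).const_mul 2).const_sub 1).mul (((hcv v).const_mul 2).const_sub 1) |>.mul_const
          (algebraMap k (v : Place k).comp ν))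
      rw [hx v] at h4
      refine h4.congr fun m => ?_
      rw [map_add, map_sub, map_mul, map_mul, map_mul, map_sub, map_mul, map_one, map_ofNat]
    have h4 := halg v _ _ h3 1
    rw [zero_smul] at h4
    rw [map_zero]
    refine h4.congr fun m => ?_
    rw [hst]
    congr 1
    rw [← Algebra.algebraMap_eq_smul_one, ← hsa]
    congr 1
    rw [map_add, map_sub, map_mul, map_mul, map_mul, map_sub, map_mul, map_one, map_ofNat, ← hν,
      show star κ = 1 - κ by rw [← hκ]; ring]
    ring

end ff

end Vale.Agent.P011.H373.Odd
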