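import Vale.Agent.P011.H373.Odd.RepT
import Vale.Agent.P011.H775.Odd.Top
import Vale.Agent.P011.One.WAc

/-!
**Weak approximation of the unitary group and the splitting of the centre, over number fields, in
the topology of finitely many finite places which split in the centre.**
-/

open NumberField IsDedekindDomain TensorProduct Module Filter Topology

set_option linter.unusedSectionVars false
set_option linter.style.haveILetI false

namespace Vale.Agent.P011.H373.Odd

open Vale.Agent.P011.Arith Vale.Agent.P011.Even Vale.Agent.P011.Two Vale.Agent.P011.One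
open Vale.Agent.P011.H775.Top (topD sz tendsto_iff sz_lt_iff coord_le sz_nonneg)

section cv

variable {k D : Type} [Field k] [NumberField k] [DivisionRing D] [Algebra k D] {N : ℕ}
  (B : Basis (Fin N) k D) {ι : Type} [Fintype ι] [Nonempty ι]
  (v : ι → HeightOneSpectrum (𝓞 k)) (a : ι → AbsoluteValue k ℝ) (ha : ∀ i, a i = plAbv (.inl (v i)))

include ha

/-- Convergence in the topology of `D` and in the completions. -/
theorem tendsto_topD_iff {f : ℕ → D} {y : D} :
    Tendsto f atTop (@nhds D (topD B a) y) ↔ ∀ i, Cv B (v i) f (1 ⊗ₜ y) := by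
  rw [tendsto_iff B a]
  have e : ∀ i j m, ‖algebraMap k ((v i).adicCompletion k) (B.repr (f m) j) -
      cof B (v i) (1 ⊗ₜ y) j‖ = a i (B.repr (f m - y) j) := by
    intro i j m
    rw [ha, plAbv_norm, cof_tmul, map_sub B.repr, Finsupp.sub_apply, map_sub]
  constructor
  · intro h i j
    rw [tendsto_iff_norm_sub_tendsto_zero]
    simp only [e]
    exact squeeze_zero (fun m => (a i).nonneg _) (fun m => coord_le B a _ i j) h
  · intro h
    have h1 : Tendsto (fun m => ∑ i, ∑ j, a i (B.repr (f m - y) j)) atTop (𝓝 0) := by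
      have h2 : (0 : ℝ) = ∑ i : ι, ∑ j : Fin N, (0 : ℝ) := by simp
      rw [h2]
      refine tendsto_finsetSum _ fun i _ => tendsto_finsetSum _ fun j _ => ?_
      have h3 := tendsto_iff_norm_sub_tendsto_zero.mp (h i j)
      simp only [e] at h3
      exact h3
    refine squeeze_zero (fun m => sz_nonneg B a _) (fun m => ?_) h1
    refine (Vale.Agent.P011.H775.Top.sz_le_iff B a (Finset.sum_nonneg fun i _ =>
      Finset.sum_nonneg fun j _ => (a i).nonneg _)).mpr fun i j => ?_
    refine le_trans ?_ (Finset.single_le_sum (f := fun i => ∑ j, a i (B.repr (f m - y) j))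
      (fun i _ => Finset.sum_nonneg fun j _ => (a i).nonneg _) (Finset.mem_univ i))
    exact Finset.single_le_sum (f := fun j => a i (B.repr (f m - y) j))
      (fun j _ => (a i).nonneg _) (Finset.mem_univ j)

/-- Convergent sequences are Cauchy. -/
theorem cau_of_cv {w : ℕ → D} (h : ∀ i, ∃ X, Cv B (v i) w X) : @Cau D _ (topD B a) w := by
  choose X hX using h
  intro V hV
  obtain ⟨ε, hε, hV'⟩ := (Vale.Agent.P011.H775.Top.mem_nhds_iff B a).mp hV
  have h1 : ∀ᶠ m in atTop, ∀ i j, ‖algebraMap k ((v i).adicCompletion k) (B.repr (w m) j) -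
      cof B (v i) (X i) j‖ < ε / 2 := by
    rw [eventually_all]
    intro i
    rw [eventually_all]
    intro j
    have h3 := tendsto_iff_norm_sub_tendsto_zero.mp (hX i j)
    exact h3.eventually_lt_const (by positivity)
  obtain ⟨M, hM⟩ := eventually_atTop.mp h1
  refine ⟨M, fun p hp q hq => hV' _ fun i j => ?_⟩
  rw [sub_zero, map_sub, Finsupp.sub_apply, ha, plAbv_norm, map_sub]
  have h2 := hM p hp i j
  have h3 := hM q hq i j
  calc ‖algebraMap k ((v i).adicCompletion k) (B.repr (w p) j) -
        algebraMap k ((v i).adicCompletion k) (B.repr (w q) j)‖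
      = ‖(algebraMap k ((v i).adicCompletion k) (B.repr (w p) j) - cof B (v i) (X i) j) -
        (algebraMap k ((v i).adicCompletion k) (B.repr (w q) j) - cof B (v i) (X i) j)‖ := by
        congr 1
        ring
    _ ≤ _ := norm_sub_le _ _
    _ < ε := by linarith

/-- Cauchy sequences converge in the completions. -/
theorem cv_of_cau {w : ℕ → D} (h : @Cau D _ (topD B a) w) (i : ι) : ∃ X, Cv B (v i) w X := by
  have h1 : ∀ j, CauchySeq fun m => algebraMap k ((v i).adicCompletion k) (B.repr (w m) j) := by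
    intro j
    rw [Metric.cauchySeq_iff]
    intro ε hε
    obtain ⟨M, hM⟩ := h {x | ∀ i j, a i (B.repr x j) < ε}
      ((Vale.Agent.P011.H775.Top.mem_nhds_iff B a).mpr ⟨ε, hε, fun x hx => by
        rw [sub_zero] at hx
        exact hx⟩)
    refine ⟨M, fun p hp q hq => ?_⟩
    have h2 := hM p hp q hq i j
    rw [ha, plAbv_norm, map_sub, Finsupp.sub_apply, map_sub] at h2
    rwa [dist_eq_norm]
  choose l hl using fun j => cauchySeq_tendsto_of_complete (h1 j)
  refine ⟨∑ j, l j ⊗ₜ[k] B j, fun j => ?_⟩
  have h3 : cof B (v i) (∑ j, l j ⊗ₜ[k] B j) j = l j := by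
    rw [cof_sum]
    rw [Finset.sum_eq_single j]
    · rw [← mul_one (l j), ← smul_eq_mul, ← TensorProduct.smul_tmul', cof_smul, cof_tmul,
        B.repr_self, Finsupp.single_eq_same, map_one]
      simp
    · intro b _ hb
      rw [← mul_one (l b), ← smul_eq_mul, ← TensorProduct.smul_tmul', cof_smul, cof_tmul,
        B.repr_self, Finsupp.single_eq_of_ne (Ne.symm hb), map_zero, mul_zero]
    · intro h
      exact absurd (Finset.mem_univ j) h
  rw [h3]
  exact hl j

end cv

section nf

variable {k K D : Type} [Field k] [NumberField k] [Field K] [StarRing K]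
  [DivisionRing D] [StarRing D] [Algebra k K] [Algebra k D] [Algebra K D] [IsScalarTower k K D]
  {d : kˣ} {s : K} {N : ℕ} {ι : Type} [Fintype ι] [Nonempty ι]

/-- **Weak approximation for unitary elements** in the topology of finitely many finite places
which split in the centre. -/
theorem wu_nf (hS : Setting k K D d s) (B : Basis (Fin N) k D)
    (v : ι → HeightOneSpectrum (𝓞 k)) (a : ι → AbsoluteValue k ℝ)
    (ha : ∀ i, a i = plAbv (.inl (v i)))
    (hφ : ∀ i, Nonempty (K →ₐ[k] (v i).adicCompletion k)) : @WU D _ _ (topD B a) := by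
  classical
  intro w hw h1 h2
  have h : ∀ c : k, star (algebraMap k D c) = algebraMap k D c := fun c => by
    rw [IsScalarTower.algebraMap_apply k K D, hS.star_alg, (hS.fix _).mpr ⟨c, rfl⟩]
  choose X hX using cv_of_cau B v a ha hw
  rw [tendsto_topD_iff B v a ha] at h1 h2
  have hs : ∀ i, Cv B (v i) (fun m => star (w m)) (starAt h (v i) (X i)) := fun i =>
    Cv.linear (starLin h) (hX i)
  have hX1 : ∀ i, X i * starAt h (v i) (X i) = 1 := fun i =>
    Cv.unique B (v i) ((hX i).mul (hs i)) (h1 i)
  have hX2 : ∀ i, starAt h (v i) (X i) * X i = 1 := fun i =>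
    Cv.unique B (v i) ((hs i).mul (hX i)) (h2 i)
  -- the local unitary elements
  have hex : ∀ u : HeightOneSpectrum (𝓞 k), ∃ x : (u.adicCompletion k ⊗[k] D)ˣ,
      u ∈ Set.range v → ((x : u.adicCompletion k ⊗[k] D) * starAt h u x = 1 ∧
        Cv B u w x) := by
    intro u
    by_cases hu : u ∈ Set.range v
    · obtain ⟨i, rfl⟩ := hu
      exact ⟨⟨X i, starAt h (v i) (X i), hX1 i, hX2 i⟩, fun _ => ⟨hX1 i, hX i⟩⟩
    · exact ⟨1, fun h => absurd h hu⟩
  choose x hx using hex
  obtain ⟨g, hg, hgc⟩ := exists_seq_unitary hS h B (Set.finite_range v)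
    (by rintro _ ⟨i, rfl⟩; exact hφ i) x fun u hu => (hx u hu).1
  refine ⟨g, hg, ?_⟩
  rw [tendsto_topD_iff B v a ha]
  intro i
  have h3 := (hgc (v i) ⟨i, rfl⟩).sub (hx (v i) ⟨i, rfl⟩).2
  rwa [sub_self, ← TensorProduct.tmul_zero D (1 : (v i).adicCompletion k)] at h3

/-- **The places of the topology split in the centre.** -/
theorem spt_nf (hS : Setting k K D d s) (B : Basis (Fin N) k D)
    (v : ι → HeightOneSpectrum (𝓞 k)) (a : ι → AbsoluteValue k ℝ)
    (ha : ∀ i, a i = plAbv (.inl (v i)))
    (hφ : ∀ i, Nonempty (K →ₐ[k] (v i).adicCompletion k)) : @Spt K D _ _ _ _ (topD B a) := by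
  classical
  have hK : CharZero K := charZero_of_injective_algebraMap (algebraMap k K).injective
  have hk2 : (2 : K) ≠ 0 := two_ne_zero
  have hfix : ∀ c : k, star (algebraMap k K c) = algebraMap k K c := fun c =>
    (hS.fix _).mpr ⟨c, rfl⟩
  -- the roots
  have hex : ∀ u : HeightOneSpectrum (𝓞 k), ∃ α : u.adicCompletion k, u ∈ Set.range v →
      α * α * algebraMap k _ (d : k) = 1 := by
    intro u
    by_cases hu : u ∈ Set.range v
    · obtain ⟨i, rfl⟩ := hu
      obtain ⟨φ⟩ := hφ i
      have h1 : φ s * φ s = algebraMap k _ (d : k) := by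
        rw [← map_mul, ← sq, hS.sq, φ.commutes]
      have h2 : φ s ≠ 0 := (_root_.map_ne_zero φ).mpr hS.s_ne
      refine ⟨(φ s)⁻¹, fun _ => ?_⟩
      rw [← h1]
      field_simp
    · exact ⟨0, fun h => absurd h hu⟩
  choose α hα using hex
  have h1 : ∀ (u : HeightOneSpectrum (𝓞 k)) (j : ℕ), ∃ t : k,
      ‖α u - algebraMap k _ t‖ < 1 / ((j : ℝ) + 1) := fun u j => dense u _ _ (by positivity)
  choose t ht using h1
  have h2 : ∀ j : ℕ, ∃ c : k, ∀ u ∈ Set.range v,
      ‖algebraMap k (u.adicCompletion k) (c - t u j)‖ < 1 / ((j : ℝ) + 1) := by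
    intro j
    obtain ⟨c, hc⟩ := approx (F := k) (Sum.inl '' Set.range v) ((Set.finite_range v).image _)
      (fun p => Sum.elim (fun v => t v j) (fun _ => 0) p) (fun _ => 1 / ((j : ℝ) + 1))
      (fun _ => by positivity)
    refine ⟨c, fun u hu => ?_⟩
    have h3 := hc (Sum.inl u) ⟨u, hu, rfl⟩
    rw [plAbv_norm] at h3
    exact h3
  choose c hc using h2
  have hcv : ∀ i, Tendsto (fun j => algebraMap k ((v i).adicCompletion k) (c j)) atTop
      (𝓝 (α (v i))) := by
    intro i
    rw [tendsto_iff_dist_tendsto_zero]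
    have h5 : Tendsto (fun j : ℕ => 1 / ((j : ℝ) + 1) + 1 / ((j : ℝ) + 1)) atTop (𝓝 0) := by
      have := tendsto_one_div_add_atTop_nhds_zero_nat (𝕜 := ℝ)
      simpa using this.add this
    refine squeeze_zero (fun _ => dist_nonneg) (fun j => ?_) h5
    rw [dist_eq_norm]
    have h6 : algebraMap k ((v i).adicCompletion k) (c j) - α (v i) =
        algebraMap k ((v i).adicCompletion k) (c j - t (v i) j) -
          (α (v i) - algebraMap k _ (t (v i) j)) := by
      rw [map_sub]
      ring
    rw [h6]
    exact (norm_sub_le _ _).trans (add_le_add (hc j (v i) ⟨i, rfl⟩).le (ht (v i) j).le)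
  -- the idempotents
  have hst : ∀ m, star ((1 + algebraMap k K (c m) * s) / 2) =
      (1 - algebraMap k K (c m) * s) / 2 := by
    intro m
    rw [star_div₀, star_add, star_mul', hfix, hS.star_s, star_one, star_ofNat]
    ring
  have hsa : ∀ c : k, algebraMap K D (algebraMap k K c) = algebraMap k D c := fun c =>
    (IsScalarTower.algebraMap_apply k K D c).symm
  refine ⟨fun m => (1 + algebraMap k K (c m) * s) / 2, fun m => ?_, ?_, ?_⟩
  · rw [hst]
    ring
  · refine cau_of_cv B v a ha fun i => ?_
    have h3 : Cv B (v i) (fun m => algebraMap k D (c m) * algebraMap K D (s / 2) +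
        algebraMap K D (1 / 2)) _ :=
      ((Cv.alg (hcv i)).mul (Cv.const B (v i) (algebraMap K D (s / 2)))).add
        (Cv.const B (v i) (algebraMap K D (1 / 2)))
    refine ⟨_, h3.congr fun m => ?_⟩
    rw [← hsa, ← map_mul, ← map_add]
    congr 1
    ring
  · rw [tendsto_topD_iff B v a ha]
    intro i
    have h3 : Tendsto (fun m => algebraMap k ((v i).adicCompletion k)
        ((1 - c m * c m * d) / 4)) atTop (𝓝 0) := by
      have h4 := (((hcv i).mul (hcv i)).mul_const (algebraMap k _ (d : k))).const_sub 1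
      rw [hα (v i) ⟨i, rfl⟩, sub_self] at h4
      have h5 := h4.div_const (algebraMap k ((v i).adicCompletion k) 4)
      rw [zero_div] at h5
      refine h5.congr fun m => ?_
      rw [map_div₀, map_sub, map_mul, map_mul, map_one]
    have h4 : Cv B (v i) (fun m => algebraMap k D ((1 - c m * c m * d) / 4)) _ := Cv.alg h3
    rw [map_zero, ← TensorProduct.tmul_zero D (1 : (v i).adicCompletion k)] at h4
    refine h4.congr fun m => ?_
    rw [hst, ← hsa]
    congr 1
    rw [map_div₀, map_sub, map_mul, map_mul, map_one, map_ofNat, ← hS.sq]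
    ring

end nf

end Vale.Agent.P011.H373.Odd
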